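import Vale.Agent.P260Z.Ob.Reg.Closed.B
import Vale.Agent.P260Z.Ob.Reg.Sheet

/-!
# P260, obstruction: the wall connections are critical, on the cells outside of the wall
-/

noncomputable section
set_option linter.unusedSectionVars false
variable [Vale.Agent.P215Z.K.Geom]
namespace Vale.Agent.P215Z.K
open MvPolynomial Classical

namespace CrB
open WB JBc

theorem wO_inj {n k k' : ℕ} (hk : k < 8 * n) (hk' : k' < 8 * n) (h : wO n k = wO n k') :
    k = k' := by
  unfold wO bdG at h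
  split_ifs at h <;> simp only [Prod.mk.injEq] at h <;> omega

theorem wO_inj' {n k k' : ℕ} (hk : k < 8 * n) (hk' : k' < 8 * n)
    (h : wO n (k + 1) = wO n (k' + 1)) : k = k' := by
  unfold wO bdG at h
  split_ifs at h <;> simp only [Prod.mk.injEq] at h <;> omega

theorem wO_le {n : ℕ} (hn : 0 < n) (k : ℕ) : (wO n k).1 ≤ 2 * n := by
  unfold wO bdG
  split_ifs <;> simp only <;> omega

theorem pl_inj {i : Kl} {g g' : Gp} (h : pl i g = pl i g') : g = g' :=
  Prod.ext (by rw [← pl_kap i g, h, pl_kap]) (by rw [← pl_three i g, h, pl_three])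

theorem oP_eq (n : ℕ) (i : Kl) (k : ℕ) : oP n i k = pl i (wO n k) := rfl

theorem wO_ex {n : ℕ} {g g1 g0 : Gp} {a : ℕ} (h1 : a % 2 = 1) (h2 : a ≤ 2 * n)
    (h : (g = ((a : ℤ), 0) ∧ g1 = ((a : ℤ) + 1, 0) ∧ g0 = ((a : ℤ) - 1, 0)) ∨
      (g = (2 * (n : ℤ), (a : ℤ)) ∧ g1 = (2 * (n : ℤ), (a : ℤ) + 1) ∧
        g0 = (2 * (n : ℤ), (a : ℤ) - 1)) ∨
      (g = ((a : ℤ), 2 * (n : ℤ)) ∧ g1 = ((a : ℤ) - 1, 2 * (n : ℤ)) ∧
        g0 = ((a : ℤ) + 1, 2 * (n : ℤ))) ∨
      (g = (0, (a : ℤ)) ∧ g1 = (0, (a : ℤ) - 1) ∧ g0 = (0, (a : ℤ) + 1))) :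
    (∃ k < 8 * n, wO n k = g ∧ wO n (k + 1) = g1) ∧
      ∃ k < 8 * n, wO n (k + 1) = g ∧ wO n k = g0 := by
  rcases h with ⟨rfl, rfl, rfl⟩ | ⟨rfl, rfl, rfl⟩ | ⟨rfl, rfl, rfl⟩ | ⟨rfl, rfl, rfl⟩
  · refine ⟨⟨a - 1, by omega, ?_, ?_⟩, if a = 1 then 8 * n - 1 else a - 2,
      by split_ifs <;> omega, ?_, ?_⟩ <;>
    (unfold wO bdG; split_ifs <;> refine Prod.ext ?_ ?_ <;> dsimp only <;> omega)
  · refine ⟨⟨2 * n + a - 1, by omega, ?_, ?_⟩, 2 * n + a - 2, by omega, ?_, ?_⟩ <;>
    (unfold wO bdG; split_ifs <;> refine Prod.ext ?_ ?_ <;> dsimp only <;> omega)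
  · refine ⟨⟨6 * n - a - 1, by omega, ?_, ?_⟩, 6 * n - a - 2, by omega, ?_, ?_⟩ <;>
    (unfold wO bdG; split_ifs <;> refine Prod.ext ?_ ?_ <;> dsimp only <;> omega)
  · refine ⟨⟨8 * n - a - 1, by omega, ?_, ?_⟩, 8 * n - a - 2, by omega, ?_, ?_⟩ <;>
    (unfold wO bdG; split_ifs <;> refine Prod.ext ?_ ?_ <;> dsimp only <;> omega)

/-- the passage of the extra curve through a three-cell -/
theorem pass {n : ℕ} {i : Kl} {g : Gp} {d : Fin 4} (h : Is3 n (pl i g) d)
    (hd : d = kap i ∨ d = 3) : ∃ (r : Fin 4) (c : Bool),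
      (∃ k < 8 * n, oP n i k = pl i g ∧ oP n i (k + 1) = face (pl i g) r c) ∧
      (∃ k < 8 * n, oP n i (k + 1) = pl i g ∧ oP n i k = face (pl i g) r (!c)) ∧
      ∀ k l, oQ (pl i g) d * sB c * eps4 d r k l = eps4 k l (kap i) 3 := by
  obtain ⟨x, y⟩ := g
  have e1 : ∀ j k l : Fin 4, eps4 j 3 k l = eps4 k l j 3 := by decide +kernel
  have e2 : ∀ j k l : Fin 4, eps4 3 j k l = -eps4 k l j 3 := by decide +kernel
  rcases hd with rfl | rfl
  · obtain ⟨h1, h2, h3⟩ := h.2 3 (JBc.kap_ne i).symm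
    rw [pl_three] at h1 h2 h3
    obtain ⟨a, rfl⟩ := Int.eq_ofNat_of_zero_le h2
    rw [Int.odd_iff] at h1
    have h4 := h.1
    rw [pl_kap] at h4
    simp only at h1 h3 h4
    rcases h4 with rfl | rfl
    · obtain ⟨⟨k, a1, a2, a3⟩, k', b1, b2, b3⟩ := wO_ex (n := n) (a := a) (by omega) (by omega)
        (Or.inr (Or.inr (Or.inr ⟨rfl, rfl, rfl⟩)))
      refine ⟨3, false, ⟨k, a1, by rw [oP_eq, a2], by rw [oP_eq, a3, face_pl3]; rfl⟩,
        ⟨k', b1, by rw [oP_eq, b2], by rw [oP_eq, b3, face_pl3]; rfl⟩, fun k l => ?_⟩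
      rw [oQ, if_pos (pl_kap _ _), e1, sB]
      simp
    · obtain ⟨⟨k, a1, a2, a3⟩, k', b1, b2, b3⟩ := wO_ex (n := n) (a := a) (by omega) (by omega)
        (Or.inr (Or.inl ⟨rfl, rfl, rfl⟩))
      refine ⟨3, true, ⟨k, a1, by rw [oP_eq, a2], by rw [oP_eq, a3, face_pl3]; rfl⟩,
        ⟨k', b1, by rw [oP_eq, b2], by rw [oP_eq, b3, face_pl3]; rfl⟩, fun k l => ?_⟩
      rw [oQ, if_neg (by rw [pl_kap]; simp only; omega), e1, sB]
      simp
  · obtain ⟨h1, h2, h3⟩ := h.2 (kap i) (JBc.kap_ne i)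
    rw [pl_kap] at h1 h2 h3
    obtain ⟨a, rfl⟩ := Int.eq_ofNat_of_zero_le h2
    rw [Int.odd_iff] at h1
    have h4 := h.1
    rw [pl_three] at h4
    simp only at h1 h3 h4
    rcases h4 with rfl | rfl
    · obtain ⟨⟨k, a1, a2, a3⟩, k', b1, b2, b3⟩ := wO_ex (n := n) (a := a) (by omega) (by omega)
        (Or.inl ⟨rfl, rfl, rfl⟩)
      refine ⟨kap i, true, ⟨k, a1, by rw [oP_eq, a2], by rw [oP_eq, a3, face_pl1]; rfl⟩,
        ⟨k', b1, by rw [oP_eq, b2], by rw [oP_eq, b3, face_pl1]; rfl⟩, fun k l => ?_⟩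
      rw [oQ, if_pos (pl_three _ _), e2, sB]
      simp
    · obtain ⟨⟨k, a1, a2, a3⟩, k', b1, b2, b3⟩ := wO_ex (n := n) (a := a) (by omega) (by omega)
        (Or.inr (Or.inr (Or.inl ⟨rfl, rfl, rfl⟩)))
      refine ⟨kap i, false, ⟨k, a1, by rw [oP_eq, a2], by rw [oP_eq, a3, face_pl1]; rfl⟩,
        ⟨k', b1, by rw [oP_eq, b2], by rw [oP_eq, b3, face_pl1]; rfl⟩, fun k l => ?_⟩
      rw [oQ, if_neg (by rw [pl_three]; simp only; omega), e2, sB]
      simp

variable {O : Type} [CommRing O]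

theorem sum_O {n : ℕ} {i : Kl} {g : Gp} {d : Fin 4} (h : Is3 n (pl i g) d)
    (hd : d = kap i ∨ d = 3) (k l : Fin 4) (ξ : MM O) :
    ∑ t ∈ Finset.range (8 * n), ∑ r,
      (oQ (pl i g) d * (oP n i (t + 1) r - oP n i t r) * eps4 d r k l) •
        ((if oP n i t = pl i g then (hat (pl i g) (oP n i (t + 1)) r : RR O) • ξ else 0) +
          (if oP n i (t + 1) = pl i g then (hat (pl i g) (oP n i t) r : RR O) • ξ else 0)) =
      eps4 k l (kap i) 3 • ξ := by
  obtain ⟨r, c, ⟨k1, a1, a2, a3⟩, ⟨k0, b1, b2, b3⟩, he⟩ := pass h hd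
  simp only [smul_add, Finset.sum_add_distrib]
  rw [Finset.sum_eq_single_of_mem k1 (Finset.mem_range.2 a1),
    Finset.sum_eq_single_of_mem k0 (Finset.mem_range.2 b1), a2, a3, b2, b3,
    Fintype.sum_eq_single r, Fintype.sum_eq_single r, if_pos rfl, if_pos rfl, ← he, face_self,
    face_self, hat, hat, face_self, face_self]
  · cases c
    · simp [sB, show ∀ z : ℤ, ¬ z = z + 1 + 1 from fun z => by omega]
      rw [← neg_add, ← add_smul, sub_add_cancel, one_smul]
    · simp [sB, ← add_smul, show ∀ z : ℤ, ¬ z = z + 1 + 1 from fun z => by omega]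
  · intro r' hr
    rw [face_ne hr, sub_self, mul_zero, zero_mul, zero_smul]
  · intro r' hr
    rw [face_ne hr, sub_self, mul_zero, zero_mul, zero_smul]
  · intro t ht hne
    refine Finset.sum_eq_zero fun r' _ => ?_
    rw [if_neg fun e => hne (wO_inj' (Finset.mem_range.1 ht) b1 (pl_inj (e.trans b2.symm))),
      smul_zero]
  · intro t ht hne
    refine Finset.sum_eq_zero fun r' _ => ?_
    rw [if_neg fun e => hne (wO_inj (Finset.mem_range.1 ht) a1 (pl_inj (e.trans a2.symm))),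
      smul_zero]

theorem renM_one' (y : MM O) : renM 1 y = y :=
  Matrix.ext fun a b => rename_id_apply (y a b)

theorem dm_upTo (N : ℕ) (i : Kl) (p : Pt) (k : ℕ) :
    dm N (i, true) (upTo p k) = upTo (dm N (i, true) p) k := by
  funext j
  have h : Odd (p j + 2 * N * org (i, true) j) ↔ Odd (p j) := by
    rw [Int.odd_iff, Int.odd_iff, mul_assoc]; omega
  simp only [upTo, wv, dm_true, h]
  split_ifs <;> ring

theorem is3_pl {n : ℕ} (i : Kl) {j : ℤ} (h0 : 0 ≤ j) (h1 : j < n) :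
    Is3 n (pl i (2 * j + 1, 0)) 3 := by
  refine ⟨Or.inl (pl_three _ _), fun m hm => ?_⟩
  rw [pl, if_neg hm]
  split_ifs
  · exact ⟨odd_two_mul_add_one j, by simp only; omega, by simp only; omega⟩
  · exact ⟨odd_one, by omega, by omega⟩

theorem isFace_pl (i : Kl) {a j : ℤ} (h : |a - (2 * j + 1)| ≤ 1) :
    IsFace (pl i (a, 0)) (pl i (2 * j + 1, 0)) := by
  intro m
  by_cases h1 : m = kap i
  · rw [h1, pl_kap, pl_kap]
    by_cases h2 : a = 2 * j + 1
    · exact Or.inl h2
    · refine Or.inr ⟨odd_two_mul_add_one j, ?_⟩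
      rw [abs_eq zero_le_one]
      rw [abs_le] at h
      simp only
      omega
  · exact Or.inl (by rw [pl, pl, if_neg h1, if_neg h1])

variable [Algebra ℚ O] {s : Setup} {a : Ideal O} (ha : IsNilpotent a) {A B : F1 O}
  (hp : s.Pair a A B)
include ha hp

theorem step_Al (i : Kl) {τ p p' : Pt} {d : Fin 4} (h : Is3 s.n τ d) (hτ : τ ∉ V0 i s.n)
    (hf : IsFace p τ) (hf' : IsFace p' τ) : step (s.Al A B (i, true)) p p' =
      step B (dm s.D.N (i, true) p) (dm s.D.N (i, true) p') := by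
  rw [step_eq_of_eq (s.Al_eq_B hp (i, true) h hτ hf) (s.Al_eq_B hp (i, true) h hτ hf'),
    step_pull _ _ ha hp.iB (dm_eq s.D.N _ p ▸ (dm_V1 s.D.hN (i, true) h hτ hf).1)
      (dm_eq s.D.N _ p' ▸ (dm_V1 s.D.hN (i, true) h hτ hf').1), ← dm_eq, ← dm_eq]
  exact Units.ext (renM_one' _)

theorem G_none (i : Kl) {k : ℕ} (hk : k ≤ 8 * s.n) :
    (s.CS i).G (s.Al A B (i, true)) none k = gg s.D.N i B (wO s.n k).1.toNat := by
  have h0 : ∀ g, s.Al A B (i, true) (pl i g) = pull 1 ((s.D.N : ℤ) • org (i, true)) B (pl i g) :=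
    fun g => s.wb_AlB A B (i, true) (pl_not i _ g)
  obtain ⟨μ, hμ⟩ := exists_pot (i := i) (C := s.Al A B (i, true))
    (fun g => by
      rw [h0, pull, hp.inv, if_pos (show (1 : Equiv.Perm (Fin 4)).symm 3 = 3 from rfl),
        PullAux.renM_zero])
    fun x y => by
      rw [h0, h0, pull, pull, hp.inv, hp.inv (affP _ _ (pl i (x, 0)))]
      congr 3
      funext j
      by_cases e : j = 3
      · simp [e]
      · simp [e, affP, pl]
  have hn := s.wb_pos
  have h1 : ∀ t : ℕ, t < 2 * s.n →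
      step B (col s.D.N i t) (col s.D.N i (t + 1 : ℕ)) = (μ t)⁻¹ * μ (t + 1 : ℕ) := by
    intro t ht
    rw [← hμ (t, 0) ((t + 1 : ℕ), 0) (by simp) (by simp only; omega) (Or.inl (by simp))]
    exact (step_Al ha hp i (is3_pl i (j := t / 2) (by omega) (by omega)) (pl_not _ _ _)
      (isFace_pl i (a := t) (by rw [abs_le]; omega))
      (isFace_pl i (a := (t + 1 : ℕ)) (by rw [abs_le]; omega))).symm
  have h2 : Up (s.Al A B (i, true)) (pl i (1, 0)) = Up B (col s.D.N i 1) :=
    holN_congr' 4 fun t _ => by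
      rw [step_Al ha hp i (τ := pl i (1, 0)) (is3_pl i (j := 0) le_rfl (by omega)) (pl_not _ _ _)
        (isFace_upTo _ _) (isFace_upTo _ _), dm_upTo, dm_upTo]
      rfl
  have h3 : wO s.n 0 = (1, 0) := by
    rw [wO, if_pos (by omega), bdG, if_pos (by omega)]
    rfl
  have h4 := wO_le hn k
  have h5 := wO_nn s.n k
  have h6 := h1 0 (by omega)
  simp only [Nat.cast_zero, zero_add, Nat.cast_one] at h6
  change holL _ [0] * Up _ (pl i (wO s.n 0)) * holN _ (fun t => pl i (wO s.n t)) k = _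
  rw [holN_pot (fun t => μ (wO s.n t).1) k fun t ht =>
      hμ _ _ (wO_nn _ t) (wO_nn _ _) (wO_adj (by omega)), h3, h2, gg,
    holN_pot (fun t => μ t) _ fun t ht => h1 t (by omega), Int.toNat_of_nonneg h5,
    step_symm B (col s.D.N i 0), h6, holL]
  simp [mul_assoc]

end CrB

namespace Setup
open WB JBc CrB
variable (s : Setup) {O : Type} [CommRing O] [Algebra ℚ O] (m : Marked O Mk)
  {x : ∀ l : Lg, Option (s.L.C l.1) → M2 O}
  (hx : ∀ l c, s.L.cown l c = true → InC (m.ii (s.L.cmark l c)) (x l c))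
  {A B : F1 O} (hp : s.Pair m.a A B)

omit [Algebra ℚ O] in
theorem Jw_out (C : F1 O) (i : Kl) (X : Option (s.L.C i) → M2 O) {τ : Pt}
    (hV : τ ∉ V0 i s.n) (d k l : Fin 4) : (s.CS i).Jw C X τ d k l =
      ∑ t ∈ Finset.range (8 * s.n), ∑ r,
        (oQ τ d * (oP s.n i (t + 1) r - oP s.n i t r) * eps4 d r k l) •
          ((if oP s.n i t = τ then (hat τ (oP s.n i (t + 1)) r : RR O) •
              (s.CS i).xi C X none t else 0) +
            (if oP s.n i (t + 1) = τ then (hat τ (oP s.n i t) r : RR O) •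
              (s.CS i).xi C X none (t + 1) else 0)) := by
  rw [CurveSys.Jw, Fintype.sum_option, Finset.sum_eq_zero (s := Finset.univ), add_zero]
  · rfl
  · rintro ⟨c, rfl⟩ -
    refine Finset.sum_eq_zero fun t ht => Finset.sum_eq_zero fun r _ => ?_
    have h1 : t < s.cv.per c := Finset.mem_range.1 ht
    rw [if_neg fun e => hV (by rw [← e]; exact s.stdP_mem c h1.le),
      if_neg fun e => hV (by rw [← e]; exact s.stdP_mem c h1), add_zero, smul_zero]

include hx hp

theorem crit_out {b : Ideal O} (hs : s.Sol x A B b) (l : Lg) {τ : Pt} {d : Fin 4}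
    (h : Is3 s.n τ d) (hV : τ ∉ V0 l.1 s.n) (i j : Fin 4) (hi : i ≠ d) (hj : j ≠ d) :
    InI b (curv (s.Al A B l) τ i j - (s.CS l.1).Jw (s.Al A B l) (s.Xv x A l) τ d i j) := by
  have oi := (h.2 i hi).1
  have oj := (h.2 j hj).1
  have e1 : curv (s.Al A B l) τ i j = curv (pull (prm l) ((s.D.N : ℤ) • org l) B) τ i j := by
    simp only [curv, dd1, s.Al_eq_B hp l h hV (It.isFace_refl τ) i oi,
      s.Al_eq_B hp l h hV (It.isFace_refl τ) j oj]
  have h1 := hs.2 _ (dm_V1 s.D.hN l h hV (It.isFace_refl τ)).1 ((prm l).symm i) ((prm l).symm j)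
    (by rw [dm_eq, odd_affP, Equiv.apply_symm_apply]; exact oi)
    (by rw [dm_eq, odd_affP, Equiv.apply_symm_apply]; exact oj)
  rw [Pi.sub_apply, Pi.sub_apply, Pi.sub_apply] at h1
  rw [e1, curv_pull, ← dm_eq, s.Jw_out _ _ _ hV]
  obtain ⟨c, b'⟩ := l
  cases b'
  · have h2 : ∀ t, (s.CS c).xi (s.Al A B (c, false)) (s.Xv x A (c, false)) none t = 0 := fun t => by
      change Ad _ (cst 0) = 0
      simp [Ad, cst]
    rw [JB_zero, sub_zero] at h1
    · simp only [h2, smul_zero, ite_self, add_zero, Finset.sum_const_zero, sub_zero]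
      exact (inI_renM _ _ _).2 h1
    · intro y hy
      have h3 := (star_iff.1 hy).1
      have h4 : ∀ r, 0 ≤ τ r ∧ τ r ≤ 2 * (3 * s.D.N : ℕ) := h.mem.1
      have h5 := h3 2 (Gx.kap_ne2 _).symm (by decide)
      have h6 := h3 0 (Gx.kap_ne0 _).symm (by decide)
      have h7 := h4 (prm (c, false) 2)
      have h8 := h4 (prm (c, false) 0)
      have hN := s.D.hN
      rw [Function.update_of_ne (by decide), dm] at h5 h6
      obtain ⟨i', y⟩ := y
      simp only [dm, mul_assoc] at h5 h6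
      obtain ⟨j, rfl | rfl, h9⟩ := Gx.org_gap02 (c, false) (i', true) (by simp) <;>
        rcases h9 with h9 | h9 <;>
        · have h10 := mul_le_mul_of_nonneg_left h9 (Int.natCast_nonneg s.D.N)
          rw [mul_add] at h10
          omega
  · change InI b (renM 1 (curv B _ i j) - _)
    change InI b (curv B _ i j - s.JB x B _ i j) at h1
    rw [renM_one']
    by_cases e : ∃ g, τ = pl c g
    · obtain ⟨g, rfl⟩ := e
      have h2 := h.mem.1 (kap c)
      rw [pl_kap] at h2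
      obtain ⟨a, ha⟩ := Int.eq_ofNat_of_zero_le h2.1
      have h3 := JB_col m hx hs.2 hp.gB hp.iB (p := dm s.D.N (c, true) (pl c g)) (i := c) (a := a)
        (by have := h2.2; simp only [Setup.n] at this; omega) (by
          funext r
          by_cases e : r = 3
          · rw [e, Function.update_self, col_three]
          · rw [Function.update_of_ne e, JBc.col, dm_true, dm_true, pl, sc0, if_neg e, if_neg e, ha])
        i j
      have h4 : ∀ t ≤ 8 * s.n, oP s.n c t = pl c g →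
          (s.CS c).xi (s.Al A B (c, true)) (s.Xv x A (c, true)) none t =
            Ad (gg s.D.N c B a) (cst (x (c, true) none)) := fun t ht e => by
        rw [CurveSys.xi, G_none m.nil hp c ht, show wO s.n t = g from pl_inj e, ha,
          Int.toNat_natCast]
        rfl
      have hd : d = kap c ∨ d = 3 := by
        by_contra h5
        exact hV ((is3_V0 h).2 (not_or.1 h5))
      have h5 := InC.add h1 (InI.mono Ideal.mul_le_right h3)
      rw [sub_add_sub_cancel, ← sum_O h hd i j] at h5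
      rw [Finset.sum_congr rfl fun t ht => Finset.sum_congr rfl fun r _ => by
        rw [if_ctx_congr Iff.rfl (fun e => by rw [h4 t (Finset.mem_range.1 ht).le e]) fun _ => rfl,
          if_ctx_congr (P := oP s.n (c, true).1 (t + 1) = pl c g) Iff.rfl
            (fun e => by rw [h4 _ (Finset.mem_range.1 ht) e]) fun _ => rfl]]
      exact h5
    · rw [JB_zero, sub_zero] at h1
      · rw [Finset.sum_eq_zero fun t _ => Finset.sum_eq_zero fun r _ => by
          rw [if_neg fun e' => e ⟨_, e'.symm⟩, if_neg fun e' => e ⟨_, e'.symm⟩, add_zero,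
            smul_zero], sub_zero]
        exact h1
      · intro y hy
        have h3 := (star_iff.1 hy).1
        have h4 : ∀ r, 0 ≤ τ r ∧ τ r ≤ 2 * (3 * s.D.N : ℕ) := h.mem.1
        have h5 := h3 2 (Gx.kap_ne2 _).symm (by decide)
        have h7 := h4 2
        have hN := s.D.hN
        rw [Function.update_of_ne (by decide), dm_true] at h5
        obtain ⟨i', y⟩ := y
        obtain rfl : i' = c := by
          by_contra hne
          have h6 := h3 0 (Gx.kap_ne0 _).symm (by decide)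
          have h8 := h4 0
          rw [Function.update_of_ne (by decide), dm_true] at h6
          simp only [mul_assoc] at h5 h6
          obtain ⟨j, rfl | rfl, h9⟩ := Gx.org_gap02 (c, true) (i', true)
            (fun e => hne (congrArg Prod.fst e).symm) <;>
            rcases h9 with h9 | h9 <;>
            · have h10 := mul_le_mul_of_nonneg_left h9 (Int.natCast_nonneg s.D.N)
              rw [mul_add] at h10
              omega
        refine e ⟨(τ (kap i'), τ 3), funext fun r => ?_⟩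
        rw [pl]
        split_ifs with e1 e2
        · rw [e1]
        · rw [e2]
        · have h8 := h3 r e1 e2
          rw [Function.update_of_ne e2, dm_true] at h8
          exact add_right_cancel h8

theorem crit_lie (hs : s.Sol x A B (s.MR x A)) (l : Lg) (c : Option (s.L.C l.1)) :
    InC (s.MR x A) ⁅s.Xv x A l c, (at0U ((s.CS l.1).H (s.Al A B l) c) : M2 O)⁆ := by
  obtain ⟨i, b⟩ := l
  rcases c with _ | ⟨c, hc⟩
  · cases b
    · change InC _ ⁅(0 : M2 O), _⁆
      rw [Ring.lie_def, zero_mul, mul_zero, sub_zero]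
      exact InC.zero
    · rw [s.H_none hp m.nil, at0U, map_one, Units.val_one, Ring.lie_def, mul_one, one_mul, sub_self]
      exact InC.zero
  · obtain rfl : s.col c = i := hc
    have h := s.lie_HR m hx hp hs.1 c b
    rw [sup_eq_left.2 Ideal.mul_le_right] at h
    rw [s.H_some hp m.nil, coe_at0U, coe_renU, at0_renM]
    exact h

end Setup
end Vale.Agent.P215Z.K
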