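import Vale.Agent.P260Z.Ob.Reg.Crit.Gen
import Vale.Agent.P260Z.Ob.Reg.Walls

/-!
# P260, obstruction, R4: interface edges and the walls
-/

noncomputable section
set_option linter.unusedSectionVars false
variable [Vale.Agent.P215Z.K.Geom]
namespace Vale.Agent.P215Z.K.Cr
open MvPolynomial Classical

theorem edge_norm {r r' : Gp} (h : GAdj r r') (hne : crn (lf r r') ≠ crn (rt r r')) :
    ∃ Q m, GAdj (ctr Q) m ∧ ((r = ctr Q ∧ r' = m) ∨ (r = m ∧ r' = ctr Q)) := by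
  rcases edge_cases h hne with h1 | h1
  · exact ⟨_, r', h1 ▸ h, Or.inl ⟨h1, rfl⟩⟩
  · exact ⟨_, r, h1 ▸ gadj_symm h, Or.inr ⟨rfl, h1⟩⟩

theorem nd_ne {F : Gp → Pt} {Q : Gp}
    (hF : Shape (F Q) (F (Q + (1, 0))) (F (Q + (0, 1))) (F (Q + (1, 1)))) (hn : ND F Q) {θ : Pt}
    {ν : Fin 4} (hθ : ∀ j, j ≠ ν → Odd (θ j)) : ref F (ctr Q) ≠ θ := by
  obtain ⟨k, l, α, β, hkl, hα, hβ, -, -, hz, -⟩ := nd_data hF hn
  rintro rfl
  by_cases h : k = ν
  · have := hθ l (h ▸ hkl.symm)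
    rw [hz, Int.odd_iff] at this
    simp only [Pi.add_apply, Pi.smul_apply, ee_same, ee_ne hkl.symm, Pi.one_apply,
      smul_eq_mul] at this
    omega
  · have := hθ k h
    rw [hz, Int.odd_iff] at this
    simp only [Pi.add_apply, Pi.smul_apply, ee_same, ee_ne hkl, Pi.one_apply,
      smul_eq_mul] at this
    omega

theorem nd_inj {F : Gp → Pt} {Q m m' : Gp}
    (hF : Shape (F Q) (F (Q + (1, 0))) (F (Q + (0, 1))) (F (Q + (1, 1)))) (hn : ND F Q)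
    (h : GAdj (ctr Q) m) (h' : GAdj (ctr Q) m') (e : ref F m = ref F m') : m = m' := by
  obtain ⟨k, l, α, β, hkl, hα, hβ, -, -, -, hz⟩ := nd_data hF hn
  rw [(hz m h).1, (hz m' h').1] at e
  have e1 := congrFun e k
  have e2 := congrFun e l
  simp only [Pi.add_apply, Pi.smul_apply, ee_same, ee_ne hkl, ee_ne hkl.symm, smul_eq_mul] at e1 e2
  refine Prod.ext ?_ ?_
  · rcases hα with rfl | rfl <;> omega
  · rcases hβ with rfl | rfl <;> omega

theorem dm_odd {N n : ℕ} (l : Lg) {τ : Pt} {d : Fin 4} (h : Is3 n τ d) (j : Fin 4)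
    (hj : j ≠ (prm l).symm d) : Odd (dm N l τ j) := by
  rw [dm_eq, odd_affP]
  exact (h.2 _ fun h' => hj (by rw [← h', Equiv.symm_apply_apply])).1

theorem dm_not_cell {N n : ℕ} (l : Lg) {p : Pt} (h : ∃ d, p d = 0 ∨ p d = 2 * n) (q : Pt) :
    dm N l p ≠ q + q + 1 := by
  obtain ⟨d, hd⟩ := h
  intro e
  have := congrFun e ((prm l).symm d)
  simp only [dm, Equiv.apply_symm_apply, Pi.add_apply, Pi.one_apply, mul_assoc] at this
  omega

theorem cell_eq (q : Pt) : cell q = q + q + 1 := by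
  funext j
  simp only [cell, Pi.add_apply, Pi.one_apply, two_mul]

theorem dm_inj (N : ℕ) (l : Lg) {p p' : Pt} (h : dm N l p = dm N l p') : p = p' := by
  rw [dm_eq, dm_eq] at h
  exact (affP_bijective _ _).1 h

theorem inG_corner {M : ℕ} {Q v : Gp} (h : InSq M Q) (h' : Corner Q v) : InG M v := by
  simp only [InSq, Corner, InG] at *
  omega

variable (s : Setup)

/-- the face on the given side of an oriented edge -/
def sf (side : Bool) (r r' : Gp) : Gp := if side then rt r r' else lf r r'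

theorem inSq_m {f : Gp} : InSq s.g.m f ↔ InSq (2 * s.D.M) f := by rw [s.hm]

theorem lab_rel (l : Lg) {τ : Pt} {d : Fin 4} (h3 : Is3 s.n τ d) (hV : τ ∈ V0 l.1 s.n)
    {Q v v' : Gp} (hQ : InSq s.D.M Q) (hv : Corner Q v) (hv' : Corner Q v')
    (hs : IsStep (s.D.F (s.D.reg v) v - s.D.F (s.D.reg v) v'))
    (he : s.D.F (s.D.reg v) v + s.D.F (s.D.reg v) v' + 1 = dm s.D.N l τ) :
    if l.2 then s.D.reg v' = s.D.reg v * FreeGroup.of l.1
      else s.D.reg v = s.D.reg v' * FreeGroup.of l.1 := by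
  obtain ⟨i, side⟩ := l
  have hR := s.D.inR v (inG_corner hQ hv)
  have hR' := s.D.inR v' (inG_corner hQ hv')
  have w1 := wall_pair s.D.hN (i, side) h3 hs he
  have w2 := wall_pair s.D.hN (i, side) h3 (isStep_sub hs) (by rw [← he]; abel)
  obtain ⟨hd1, hd2⟩ := (is3_V0 h3).1 hV
  cases side
  · have a1 : s.D.F (s.D.reg v) v ∈ Qc s.D.N (i, false) := by
      by_contra hc
      exact out_U s.D.hN i d hd1 hd2 (w1.2.2 hc).1 (w1.2.2 hc).2 hR.1
    have a2 : s.D.F (s.D.reg v) v' ∉ Qc s.D.N (i, false) := fun hc => by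
      have b1 := w1.1 a1
      have b2 := w2.1 hc
      simp only [Pi.sub_apply, oQ] at b1 b2
      split_ifs at b1 b2 <;> omega
    have a3 := out_U s.D.hN i d hd1 hd2 (w2.2.2 a2).1 (w2.2.2 a2).2
    have a4 : s.D.reg v' ≠ s.D.reg v := fun e => a3 (e ▸ hR'.1)
    rcases s.D.sq Q hQ with h | ⟨g, i', h⟩
    · exact absurd ((h v' hv').trans (h v hv).symm) a4
    rcases (h v hv).2 with ⟨e, -⟩ | ⟨e, hq⟩
    · exact absurd (e ▸ (h v' hv').1) a3
    have b1 := thC_mem hq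
    rw [← s.D.equiv, ← e] at b1
    have b2 := Qc_sep s.D.hN a1 b1 fun j => by simp
    obtain rfl : i = i' := congrArg Prod.fst b2
    rcases (h v' hv').2 with ⟨e', -⟩ | ⟨e', -⟩
    · simp only [Bool.false_eq_true, if_false]; rw [e, e']
    · exact absurd (e'.trans e.symm) a4
  · have a1 := w1.2.1 (hR.2 i)
    have a4 : s.D.reg v' ≠ s.D.reg v := fun e => hR'.2 i (e ▸ a1)
    rcases s.D.sq Q hQ with h | ⟨g, i', h⟩
    · exact absurd ((h v' hv').trans (h v hv).symm) a4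
    rcases (h v hv).2 with ⟨e, -⟩ | ⟨e, hq⟩
    · rcases (h v' hv').2 with ⟨e', -⟩ | ⟨e', hq⟩
      · exact absurd (e'.trans e.symm) a4
      · have b2 := Qc_sep s.D.hN a1 (e ▸ hq) fun j => by simp
        obtain rfl : i = i' := congrArg Prod.fst b2
        simp only [if_true]; rw [e, e']
    · have b1 := thC_mem hq
      rw [← s.D.equiv, ← e] at b1
      exact absurd (congrArg Prod.snd (Qc_sep s.D.hN b1 a1 (step_abs hs))) (by simp)

section curve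
variable (c : s.cv.C) {k : ℕ} (hk : k < s.cv.per c)
include hk

theorem reg_lf : s.D.reg (crn (lf (s.cv.vx c k) (s.cv.vx c (k + 1)))) = s.cv.labS (s.cv.shL c) := by
  rw [← s.hlab, ← s.cv.lab_sh _ (s.cv.ie c k hk).2.1, s.cv.sh_left c k hk]

theorem reg_rt : s.D.reg (crn (rt (s.cv.vx c k) (s.cv.vx c (k + 1)))) = s.cv.labS (s.cv.shR c) := by
  rw [← s.hlab, ← s.cv.lab_sh _ (s.cv.ie c k hk).2.2.1, s.cv.sh_right c k hk]

theorem sh_sf (side : Bool) :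
    s.cv.sh (sf side (s.cv.vx c k) (s.cv.vx c (k + 1))) = s.shS c side := by
  cases side
  · exact s.cv.sh_left c k hk
  · exact s.cv.sh_right c k hk

theorem crn_ne : crn (lf (s.cv.vx c k) (s.cv.vx c (k + 1))) ≠
    crn (rt (s.cv.vx c k) (s.cv.vx c (k + 1))) := fun e => by
  have h1 := reg_lf s c hk
  rw [e, reg_rt s c hk, s.hcol] at h1
  exact of_ne _ (mul_eq_left.1 h1.symm)

theorem left_in (side : Bool) {Q : Gp} (hQ : InSq s.D.M Q)
    (h1 : Corner Q (crn (lf (s.cv.vx c k) (s.cv.vx c (k + 1)))))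
    (h2 : Corner Q (crn (rt (s.cv.vx c k) (s.cv.vx c (k + 1))))) :
    s.D.F (s.cv.labS (s.shS c side)) (crn (lf (s.cv.vx c k) (s.cv.vx c (k + 1)))) ∈
      Qc s.D.N (s.col c, side) := by
  have e1 := reg_lf s c hk
  have e2 := reg_rt s c hk
  have e3 := s.hcol c
  have hne : s.cv.labS (s.cv.shL c) ≠ s.cv.labS (s.cv.shR c) := fun e =>
    of_ne _ (mul_eq_left.1 (e3.symm.trans e))
  have key : s.D.F (s.cv.labS (s.cv.shR c)) (crn (lf (s.cv.vx c k) (s.cv.vx c (k + 1)))) ∈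
      Qc s.D.N (s.col c, true) := by
    rcases s.D.sq Q hQ with h | ⟨g, i', h⟩
    · exact absurd (e1.symm.trans ((h _ h1).trans ((h _ h2).symm.trans e2))) hne
    rcases (h _ h1).2 with ⟨e, -⟩ | ⟨e, hq⟩ <;> rcases (h _ h2).2 with ⟨e', -⟩ | ⟨e', -⟩ <;>
      rw [e1] at e <;> rw [e2] at e'
    · exact absurd (e.trans e'.symm) hne
    · rw [e, e', mul_assoc] at e3
      exact absurd (mul_eq_left.1 e3.symm) (of_mul_of_ne _ _)
    · rw [e, e'] at e3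
      rw [e', ← of_inj (mul_left_cancel e3)]
      exact hq
    · exact absurd (e.trans e'.symm) hne
  cases side
  · have := thC_mem key
    rwa [← s.D.equiv, ← e3] at this
  · exact key

/-- the data of a step of a curve which touches the three-cell `θ` -/
theorem act_data (side : Bool) {θ : Pt} {ν : Fin 4} (hθ : ∀ j, j ≠ ν → Odd (θ j))
    (h1 : s.FF (s.shS c side) (s.cv.vx c k) ≠ s.FF (s.shS c side) (s.cv.vx c (k + 1)))
    (h2 : s.FF (s.shS c side) (s.cv.vx c k) = θ ∨ s.FF (s.shS c side) (s.cv.vx c (k + 1)) = θ) :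
    ∃ Q m, GAdj (ctr Q) m ∧ InSq s.D.M Q ∧ sqOf (lf (s.cv.vx c k) (s.cv.vx c (k + 1))) = Q ∧
      s.Nondeg (s.shS c side) Q ∧ s.FF (s.shS c side) m = θ ∧ s.FF (s.shS c side) (ctr Q) ≠ θ ∧
      ((s.cv.vx c k = ctr Q ∧ s.cv.vx c (k + 1) = m ∧
          s.D.F (s.cv.labS (s.shS c side)) (crn (lf (ctr Q) m)) ∈ Qc s.D.N (s.col c, side)) ∨
        (s.cv.vx c k = m ∧ s.cv.vx c (k + 1) = ctr Q ∧
          s.D.F (s.cv.labS (s.shS c side)) (crn (rt (ctr Q) m)) ∈ Qc s.D.N (s.col c, side))) ∧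
      ∃ f, InSq s.g.m f ∧ s.cv.sh f = s.shS c side ∧ sqOf f = Q ∧ Corner f (ctr Q) ∧ Corner f m := by
  obtain ⟨i1, i2, i3, -⟩ := s.cv.ie c k hk
  obtain ⟨Q, m, h, ho⟩ := edge_norm i1 (crn_ne s c hk)
  have hsf := sh_sf s c hk side
  have hin := @left_in _ s c k hk side Q
  have m1 := s.FF_side c side k
  have m2 := s.FF_side c side (k + 1)
  have v1 := (s.stdP_mem c hk.le).1.2
  have v2 := (s.stdP_mem c (Nat.succ_le_of_lt hk)).1.2
  have hQ : InSq s.D.M Q := by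
    rcases ho with ⟨e1, e2⟩ | ⟨e1, e2⟩ <;> rw [e1, e2, inSq_m] at i2
    exacts [(inSq_lf h _).1.1 i2, (inSq_lf h _).2.1 i2]
  have hsh := s.D.shape (s.cv.labS (s.shS c side)) Q hQ
  have hn : s.Nondeg (s.shS c side) Q := by
    by_contra hn
    have : s.FF (s.shS c side) m = s.FF (s.shS c side) (ctr Q) := by
      refine ref_deg hsh h hn fun e => ?_
      have e' := ref_mid h (s.D.F (s.cv.labS (s.shS c side)))
      rw [e] at e'
      rcases ho with ⟨-, e2⟩ | ⟨e2, -⟩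
      · exact dm_not_cell _ v2 _ (m2.trans (e2 ▸ e'))
      · exact dm_not_cell _ v1 _ (m1.trans (e2 ▸ e'))
    rcases ho with ⟨e1, e2⟩ | ⟨e1, e2⟩ <;> rw [e1, e2] at h1
    exacts [h1 this.symm, h1 this]
  have hz : s.FF (s.shS c side) (ctr Q) ≠ θ := nd_ne hsh hn hθ
  obtain ⟨c1, c2, c3, c4⟩ := corner_lf h
  refine ⟨Q, m, h, hQ, ?_, hn, ?_, hz, ?_, sf side (s.cv.vx c k) (s.cv.vx c (k + 1)), ?_, hsf, ?_⟩
  · rcases ho with ⟨e1, e2⟩ | ⟨e1, e2⟩ <;> rw [e1, e2]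
    exacts [(sq_lf h).1, (sq_lf h).2]
  · rcases ho with ⟨e1, e2⟩ | ⟨e1, e2⟩ <;> rw [e1, e2] at h2
    exacts [h2.resolve_left hz, h2.resolve_right hz]
  · rcases ho with ⟨e1, e2⟩ | ⟨e1, e2⟩ <;> rw [e1, e2] at hin
    · exact Or.inl ⟨e1, e2, hin hQ (corner_crn h).1 (corner_crn h).2⟩
    · exact Or.inr ⟨e1, e2, hin hQ (corner_crn h).2 (corner_crn h).1⟩
  · cases side
    exacts [i2, i3]
  · rcases ho with ⟨e1, e2⟩ | ⟨e1, e2⟩ <;> rw [e1, e2] <;> cases side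
    exacts [⟨(sq_lf h).1, c1, c2⟩, ⟨(sq_lf h).2, c3, c4⟩, ⟨(sq_lf h).2, c3, c4⟩,
      ⟨(sq_lf h).1, c1, c2⟩]

end curve

/-- a face of a nondegenerate square at the wall lies along a curve -/
theorem exists_curve (l : Lg) {τ : Pt} {d : Fin 4} (h3 : Is3 s.n τ d) (hV : τ ∈ V0 l.1 s.n)
    {f r : Gp} (hf : InSq s.g.m f) (hr : Corner f r) (hn : s.Nondeg (s.cv.sh f) (sqOf f))
    (he : s.FF (s.cv.sh f) r = dm s.D.N l τ) : ∃ c, ∃ k < s.cv.per c, s.col c = l.1 ∧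
      s.shS c l.2 = s.cv.sh f ∧ sqOf (lf (s.cv.vx c k) (s.cv.vx c (k + 1))) = sqOf f ∧
      s.FF (s.cv.sh f) (s.cv.vx c k) ≠ s.FF (s.cv.sh f) (s.cv.vx c (k + 1)) ∧
      (s.FF (s.cv.sh f) (s.cv.vx c k) = dm s.D.N l τ ∨
        s.FF (s.cv.sh f) (s.cv.vx c (k + 1)) = dm s.D.N l τ) := by
  have hQ : InSq s.D.M (sqOf f) := by
    rw [inSq_m] at hf
    simp only [InSq, sqOf] at hf ⊢
    push_cast at hf
    omega
  have hsh := s.D.shape (s.cv.labS (s.cv.sh f)) _ hQ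
  have hz : s.FF (s.cv.sh f) (ctr (sqOf f)) ≠ dm s.D.N l τ := nd_ne hsh hn (dm_odd l h3)
  have hl : s.cv.labS (s.cv.sh f) = s.D.reg (crn f) := by rw [s.cv.lab_sh f hf, s.hlab]
  rcases corner_cases hr with e | e | ⟨h, e⟩
  · exact absurd (e ▸ he) hz
  · rw [e, Setup.FF, ref_ee] at he
    exact absurd (he.symm.trans (cell_eq _)) (dm_not_cell (n := s.n) l ⟨d, h3.1⟩ _)
  generalize sqOf f = Q at *
  have hm := ref_mid h (s.D.F (s.cv.labS (s.cv.sh f)))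
  have hst := step_mid hsh h
  obtain ⟨c1, c2⟩ := corner_crn h
  have j1 : InSq s.g.m (lf (ctr Q) r) := (inSq_m s).2 ((inSq_lf h _).1.2 hQ)
  have j2 : InSq s.g.m (rt (ctr Q) r) := (inSq_m s).2 ((inSq_lf h _).2.2 hQ)
  have he' : ref (s.D.F (s.cv.labS (s.cv.sh f))) r = dm s.D.N l τ := he
  rw [hm, hl] at he'
  rw [hl] at hst
  have key : ∃ r1 r2, ((r1 = ctr Q ∧ r2 = r) ∨ (r1 = r ∧ r2 = ctr Q)) ∧ sf l.2 r1 r2 = f ∧
      s.D.reg (crn (lf r1 r2)) = s.D.reg (crn (rt r1 r2)) * FreeGroup.of l.1 := by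
    rcases e with e | e
    · rw [← e] at he' hst c1
      have := lab_rel s l h3 hV hQ c1 c2 hst he'
      cases hl2 : l.2 <;> rw [hl2] at this
      · exact ⟨_, _, Or.inl ⟨rfl, rfl⟩, e.symm, e ▸ this⟩
      · exact ⟨_, _, Or.inr ⟨rfl, rfl⟩, e.symm, this.trans (by rw [e]; rfl)⟩
    · rw [← e] at he' hst c2
      have := lab_rel s l h3 hV hQ c2 c1 (isStep_sub hst) (by rw [← he']; abel)
      cases hl2 : l.2 <;> rw [hl2] at this
      · exact ⟨_, _, Or.inr ⟨rfl, rfl⟩, e.symm, (congrArg (fun z => s.D.reg (crn z)) e).symm.trans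
          this⟩
      · exact ⟨_, _, Or.inl ⟨rfl, rfl⟩, e.symm, e ▸ this⟩
  obtain ⟨r1, r2, ho, e1, e2⟩ := key
  have hie : s.g.IE r1 r2 := by
    have hd : s.g.dir (s.g.lab (lf r1 r2)) (s.g.lab (rt r1 r2)) :=
      (s.hdir _ _).2 ⟨l.1, by rw [s.hlab, s.hlab, e2]⟩
    rcases ho with ⟨rfl, rfl⟩ | ⟨rfl, rfl⟩
    exacts [⟨h, j1, j2, hd⟩, ⟨gadj_symm h, j2, j1, hd⟩]
  obtain ⟨c, k, hk, rfl, rfl⟩ := s.cv.ie_surj r1 r2 hie
  refine ⟨c, k, hk, ?_, by rw [← sh_sf s c hk, e1], ?_, ?_, ?_⟩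
  · rw [reg_lf s c hk, reg_rt s c hk, s.hcol] at e2
    exact of_inj (mul_left_cancel e2)
  · rcases ho with ⟨a1, a2⟩ | ⟨a1, a2⟩ <;> rw [a1, a2]
    exacts [(sq_lf h).1, (sq_lf h).2]
  · rcases ho with ⟨a1, a2⟩ | ⟨a1, a2⟩ <;> rw [a1, a2, he]
    exacts [hz, hz.symm]
  · rcases ho with ⟨a1, a2⟩ | ⟨a1, a2⟩ <;> rw [a1, a2]
    exacts [Or.inr he, Or.inl he]

end Vale.Agent.P215Z.K.Cr
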